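import Crest.Agent.N221.Dy.Bd
import Crest.Agent.N221.Ch.Prd

/-!
Row 221, block Dy (helper85): specification, periodic points and transitivity in the charts.
-/

set_option autoImplicit false
set_option linter.unusedSectionVars false
set_option linter.unusedVariables false

open MeasureTheory Set Filter Topology Metric
open scoped ContDiff RealInnerProductSpace ENNReal
open Crest.GeometryTopology.Submanifold
open Crest.Agent.R241.DDefs Crest.Agent.R241.D2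
open Crest.Agent.R208.J Crest.Agent.R208.L

noncomputable section

namespace Crest.Agent.N221.Cov

variable {n N m : ℕ} {a : ℝ} {S : Set (Euc N)} {G : Geo n N (-(a ^ 2)) S} (C : Cov G)
variable {f f' f'' : FF n N m} {z z' : ZZ m} {x y ξ η : Euc n} {v w : Euc N} {q : Euc m}
  {g : Euc n → Euc n} {s t : ℝ}

lemma _root_.Crest.Agent.N221.trT : TrS := trS sys volT N221.lps

variable (H : Hyp n N a S)
include H

lemma cW {α : Type*} [TopologicalSpace α] {s : Set α} {p : α} {F P : α → Euc n} (hF : F p ≠ 0)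
    (h1 : ContinuousWithinAt F s p) (h2 : ContinuousWithinAt P s p) :
    ContinuousWithinAt (fun k => C.W (F k) (P k)) s p :=
  ContinuousAt.comp_continuousWithinAt (g := fun k : Euc n × Euc n => C.W k.1 k.2)
    (f := fun k => (F k, P k)) ((C.continuousOn_W H.a_pos).continuousAt
      ((isOpen_ne_fun continuous_fst continuous_const).mem_nhds hF)) (h1.prodMk h2)

/-- SPECIFICATION: the geodesic from the backward end of `(g x, v)` to the forward end of `(y, w)`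
passes near both vectors, and `g x` is at bounded distance from `y` -/
lemma spec {ρ : ℝ} (hρ : 0 < ρ) : ∃ R : ℝ, ∀ x v y w, C.Un x v → C.Un y w → ∃ g, C.Deck g ∧
    C.dd (g x) y ≤ R ∧ ‖C.W (C.ep y w) (g x) - v‖ < ρ ∧ ‖C.W (C.ep (g x) (-v)) y + w‖ < ρ := by
  have ha := H.a_pos
  obtain ⟨D, -, hD⟩ := C.exists_deck
  set K := {p : Euc n × Euc N | ‖p.1‖ ≤ D ∧ C.Un p.1 p.2}
  have key := ((C.cpt_un D).prod (C.cpt_un D)).induction_on
    (p := fun s => ∃ R : ℝ, ∀ p ∈ s, ∃ g, C.Deck g ∧ C.dd (g p.1.1) p.2.1 ≤ R ∧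
      ‖C.W (C.ep p.2.1 p.2.2) (g p.1.1) - p.1.2‖ < ρ ∧
      ‖C.W (C.act g (C.ep p.1.1 (-p.1.2))) p.2.1 + p.2.2‖ < ρ)
    ⟨0, fun _ h => h.elim⟩ (fun s t st ⟨R, h⟩ => ⟨R, fun p hp => h p (st hp)⟩)
    (fun s t ⟨R, h⟩ ⟨R', h'⟩ => ⟨max R R', fun p hp => hp.elim
      (fun hp => let ⟨g, a1, a2, a3⟩ := h p hp; ⟨g, a1, a2.trans (le_max_left _ _), a3⟩)
      (fun hp => let ⟨g, a1, a2, a3⟩ := h' p hp; ⟨g, a1, a2.trans (le_max_right _ _), a3⟩)⟩)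
    (fun p hp => by
      have hG := C.ep_GG ha hp.1.2
      have hG' := C.ep_GG ha hp.2.2
      have c0 := C.cW H (s := univ) (F := id) (P := fun _ => p.1.1) (GG_sub hG).1
        continuousWithinAt_id continuousWithinAt_const
      have c0' := C.cW H (s := univ) (F := id) (P := fun _ => p.2.1) (GG_sub hG').2.1
        continuousWithinAt_id continuousWithinAt_const
      rw [continuousWithinAt_univ] at c0 c0'
      obtain ⟨δ, δ0, hδ⟩ := Metric.continuousAt_iff.1 c0 ρ hρ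
      obtain ⟨δ', δ0', hδ'⟩ := Metric.continuousAt_iff.1 c0' ρ hρ
      obtain ⟨g, ξ', hg, u, e, d1, d2⟩ := C.sweep H trT hG hG' (lt_min δ0 δ0')
      rw [lt_min_iff, ← dist_eq_norm] at d1 d2
      have d3 := hδ d1.1
      have d4 := hδ' d2.2
      simp only [dist_eq_norm, id] at d3 d4
      rw [C.W_ep_self ha hp.1.2, ← C.W_act ha hg (bas_ne0 u), e] at d3
      rw [C.W_ep_self ha (hp.2.2.neg C), sub_neg_eq_add] at d4
      have e1 : ContinuousWithinAt (fun k : (Euc n × Euc N) × Euc n × Euc N => C.ep k.2.1 k.2.2)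
          (K ×ˢ K) p := ((C.continuousOn_ep ha).comp continuousOn_snd fun _ h => h.2.2) p hp
      have e2 : ContinuousWithinAt (fun k : (Euc n × Euc N) × Euc n × Euc N => C.ep k.1.1 (-k.1.2))
          (K ×ˢ K) p := ((C.continuousOn_ep ha).comp
            (f := fun k : (Euc n × Euc N) × Euc n × Euc N => (k.1.1, -k.1.2)) (by fun_prop)
            fun _ h => h.1.2.neg) p hp
      have e3 := ContinuousAt.comp_continuousWithinAt (g := C.act g)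
        (f := fun k : (Euc n × Euc N) × Euc n × Euc N => C.ep k.1.1 (-k.1.2))
        ((C.continuousOn_act ha hg).continuousAt (isOpen_ne.mem_nhds (GG_sub hG).2.1)) e2
      have e4 : ContinuousWithinAt (fun k : (Euc n × Euc N) × Euc n × Euc N => g k.1.1)
          (K ×ˢ K) p := (hg.smooth.continuous.comp (by fun_prop)).continuousWithinAt
      have c1 := ((C.cW H (F := fun k : (Euc n × Euc N) × Euc n × Euc N => C.ep k.2.1 k.2.2)
        (C.ep_ne_zero ha hp.2.2) e1 e4).sub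
        (continuous_snd.comp continuous_fst).continuousWithinAt).norm
      have c2 := ((C.cW H (F := fun k : (Euc n × Euc N) × Euc n × Euc N =>
          C.act g (C.ep k.1.1 (-k.1.2))) (C.act_ne_zero ha hg (GG_sub hG).2.1) e3
        (continuous_fst.comp continuous_snd).continuousWithinAt).add
        (continuous_snd.comp continuous_snd).continuousWithinAt).norm
      refine ⟨_, inter_mem (inter_mem (c1.eventually_lt_const d3) (c2.eventually_lt_const d4))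
        (inter_mem (e4.norm.eventually_lt_const (lt_add_one _)) self_mem_nhdsWithin),
        ‖g p.1.1‖ + 1 + D, fun k hk => ⟨g, hg, ?_, hk.1.1, hk.1.2⟩⟩
      have := C.dd_triangle ha.le (g k.1.1) 0 k.2.1
      rw [C.dd_comm _ 0, C.dd_zero, C.dd_zero] at this
      have h1 : ‖g k.1.1‖ < ‖g p.1.1‖ + 1 := hk.2.1
      linarith [hk.2.2.2.1])
  obtain ⟨R, hR⟩ := key
  refine ⟨R, fun x v y w hv hw => ?_⟩
  obtain ⟨k, hk, hx⟩ := hD x
  obtain ⟨l, hl, hy⟩ := hD y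
  obtain ⟨l', hl', i1, i2⟩ := hl.inv C
  obtain ⟨g, hg, b1, b2, b3⟩ := hR ((k x, v), l y, w) ⟨⟨hx, (hk.un C).2 hv⟩, hy, (hl.un C).2 hw⟩
  have u1 : C.Un (g (k x)) (-v) := (hg.un C).2 ((hk.un C).2 (hv.neg C))
  dsimp only at b1 b2 b3
  refine ⟨l' ∘ g ∘ k, hl'.comp C (hg.comp C hk), ?_, ?_, ?_⟩ <;> simp only [Function.comp]
  · rwa [← hl.dd_eq, i2]
  · rwa [← C.W_act ha hl (C.ep_ne_zero ha hw), C.act_ep ha hl hw, i2]
  · rwa [← C.W_act ha hl (C.ep_ne_zero ha ((hl'.un C).2 u1)), C.act_ep ha hl ((hl'.un C).2 u1), i2,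
      ← C.act_ep ha hg ((hk.un C).2 (hv.neg C))]

/-- closeness of `W ξ x` to the base vector, read in the chart -/
lemma fw_of_near (hf : C.Frm f) (hξ : ‖ξ‖ = 1) {ε : ℝ} (h1 : ε ≤ 1)
    (h : ‖C.W ξ f.1 - f.2.1‖ ≤ ε) : C.Fw f ξ ∧ ‖C.pq f ξ 0‖ ≤ ε := by
  have u := (C.un_W H.a_pos (bas_ne0 hξ) f.1).norm
  have u' := hf.un.norm
  refine ⟨⟨hξ, ?_⟩, ?_⟩
  · have := norm_sub_sq_real (C.W ξ f.1) f.2.1
    rw [u, u'] at this
    nlinarith [norm_nonneg (C.W ξ f.1 - f.2.1)]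
  · have o : ∀ e, ⟪f.2.1, f.2.2 e⟫ = 0 := fun e => by
      have := C.inner_lg_hy hf e
      rwa [C.lg_hy hf, real_inner_comm] at this
    have e : ⟪C.pq f ξ 0, C.pq f ξ 0⟫ = ⟪C.W ξ f.1 - f.2.1, f.2.2 (C.pq f ξ 0)⟫ := by
      rw [inner_sub_left, o, sub_zero, ← ContinuousLinearMap.adjoint_inner_left]
      simp only [pq, C.Jh_zero hf, C.hy_zero]
    have e2 := real_inner_le_norm (C.W ξ f.1 - f.2.1) (f.2.2 (C.pq f ξ 0))
    rw [← e, hf.iso, real_inner_self_eq_norm_sq] at e2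
    nlinarith [norm_nonneg (C.pq f ξ 0), norm_nonneg (C.W ξ f.1 - f.2.1)]

variable (hm : m + 1 = n)
include hm

/-- (SP) in the charts: the centre unstable plaque of `g f₁` meets the centre stable plaque of
`f₂` -/
lemma spec_ch {ε : ℝ} (hε : 0 < ε) : ∃ R : ℝ, ∀ f₁ f₂ : FF n N m, C.Frm f₁ → C.Frm f₂ →
    ∃ g, C.Deck g ∧ C.dd (g f₁.1) f₂.1 ≤ R ∧
      C.Fw (fg g f₁) (C.ge f₂ 0).1 ∧ ‖C.pq (fg g f₁) (C.ge f₂ 0).1 0‖ ≤ ε ∧
      C.Fw (fp f₂) (C.ge (fg g f₁) 0).2 ∧ ‖C.pq f₂ (C.ge (fg g f₁) 0).2 0‖ ≤ ε ∧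
      ∃ z₁ z₂ : ZZ m, ‖z₁‖ ≤ ε ∧ ‖z₂‖ ≤ ε ∧ z₁ ∈ C.dm (fg g f₁) f₂ ∧ C.Tf (fg g f₁) f₂ z₁ = z₂ ∧
        C.ge (fg g f₁) z₁ = ((C.ge f₂ 0).1, (C.ge (fg g f₁) 0).2) ∧
        C.ge f₂ z₂ = ((C.ge f₂ 0).1, (C.ge (fg g f₁) 0).2) := by
  have ha := H.a_pos
  obtain ⟨K, δ, K0, δ0, hK⟩ := C.prod_box H hm (m := m)
  have r0 := C.rr_pos H hm
  obtain ⟨ρ, ρ0, b1, b2, b3, b4, b5⟩ : ∃ ρ : ℝ, 0 < ρ ∧ ρ ≤ 1 ∧ ρ ≤ ε ∧ ρ ≤ δ ∧ K * ρ ≤ ε ∧
      K * ρ < C.rr m := by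
    have t : Tendsto (fun ρ : ℝ => K * ρ) (𝓝[>] 0) (𝓝 0) := by
      have := ((by fun_prop : Continuous fun ρ : ℝ => K * ρ).tendsto 0).mono_left
        (nhdsWithin_le_nhds (s := Ioi 0))
      rwa [mul_zero] at this
    have i : Tendsto (fun ρ : ℝ => ρ) (𝓝[>] 0) (𝓝 0) := tendsto_id.mono_left nhdsWithin_le_nhds
    obtain ⟨ρ, h⟩ := ((eventually_mem_nhdsWithin (a := (0 : ℝ)) (s := Ioi 0)).and
      ((i.eventually_le_const one_pos).and ((i.eventually_le_const hε).and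
      ((i.eventually_le_const δ0).and ((t.eventually_le_const hε).and
      (t.eventually_lt_const r0)))))).exists
    exact ⟨ρ, h⟩
  obtain ⟨R, hR⟩ := C.spec H ρ0
  refine ⟨R, fun f₁ f₂ h1 h2 => ?_⟩
  obtain ⟨g, hg, d0, d1, d2⟩ := hR _ _ _ _ h1.un h2.un
  have h1' := h1.fg C hg
  have e1 := C.ge_zero H h1'
  have e2 := C.ge_zero H h2
  have G1 := C.ep_GG ha h1'.un
  have G2 := C.ep_GG ha h2.un
  obtain ⟨a1, a2⟩ := C.fw_of_near H h1' G2.1 b1 d1.le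
  obtain ⟨a3, a4⟩ := C.fw_of_near H h2.fp G1.2.1 b1 (by
    show ‖C.W _ f₂.1 - -f₂.2.1‖ ≤ ρ
    rw [sub_neg_eq_add]; exact d2.le)
  obtain ⟨a5, a6⟩ := C.fw_of_near H h1'.fp G1.2.1 b1 (by
    show ‖C.W _ (fg g f₁).1 - -(fg g f₁).2.1‖ ≤ ρ
    rw [C.W_ep_self ha (h1'.un.neg C), sub_self, norm_zero]; exact ρ0.le)
  obtain ⟨a7, a8⟩ := C.fw_of_near H h2 G2.1 b1 (by
    rw [C.W_ep_self ha h2.un, sub_self, norm_zero]; exact ρ0.le)
  obtain ⟨z₁, n1, g1⟩ := hK _ _ _ ρ h1' a1 a5 b3 a2 a6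
  obtain ⟨z₂, n2, g2⟩ := hK _ _ _ ρ h2 a7 a3 b3 a8 a4
  obtain ⟨m1, m2⟩ := C.mem_dm H hm h2 (n1.trans_lt b5) (n2.trans_lt b5) (g2.trans g1.symm)
  rw [← e1] at a3 a4 g1 g2
  rw [← e2] at a1 a2 g1 g2
  exact ⟨g, hg, d0, a1, a2.trans b2, a3, a4.trans b2, z₁, z₂, n1.trans b4, n2.trans b4, m1, m2,
    g1, g2⟩

/-- the charts are open maps -/
lemma ge_mem_nhds (hf : C.Frm f) (hz : z ∈ C.Dm f) {V : Set (ZZ m)} (hV : V ∈ 𝓝 z) :
    C.ge f '' V ∈ 𝓝[GG n] C.ge f z := by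
  have t : Tendsto (fun p : Euc n × Euc n => (f, p)) (𝓝 (C.ge f z)) (𝓝 (f, C.ge f z)) :=
    (continuous_const.prodMk continuous_id).tendsto _
  filter_upwards [mem_nhdsWithin_of_mem_nhds (t.eventually (C.ge_nhds H hm hf hz hV)),
    self_mem_nhdsWithin] with p h1 h2 using h1 hf h2

lemma Dm_of_lt (hf : C.Frm f) (hz : ‖z‖ < C.rr m) : z ∈ C.Dm f :=
  C.Dm_of_le H hm hf (by linarith [C.rr_pos H hm])

omit H hm in
lemma ball_rr (hz : ‖z‖ < C.rr m) {V : Set (ZZ m)} (hV : V ∈ 𝓝 z) :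
    V ∩ ball 0 (C.rr m) ∈ 𝓝 z := inter_mem hV (isOpen_ball.mem_nhds (mem_ball_zero_iff.2 hz))

/-- TRANSITIVITY in the charts (for the flip apply it to `fp f'`, `flp z'`) -/
lemma trans_ch (hf : C.Frm f) (hf' : C.Frm f') (hz : ‖z‖ < C.rr m) (hz' : ‖z'‖ < C.rr m)
    {V V' : Set (ZZ m)} (hV : V ∈ 𝓝 z) (hV' : V' ∈ 𝓝 z') :
    ∃ g, C.Deck g ∧ ∃ w ∈ V, w ∈ C.dm f (fg g f') ∧ C.Tf f (fg g f') w ∈ V' := by
  have d := C.Dm_of_lt H hm hf hz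
  have d' := C.Dm_of_lt H hm hf' hz'
  obtain ⟨g, hg, -, -, ⟨w', m', rfl⟩, w, m, e⟩ := C.trans2 H trT (C.ge_GG H hf' d')
    (C.ge_GG H hf d) (C.ge_mem_nhds H hm hf' d' (C.ball_rr hz' hV'))
    (C.ge_mem_nhds H hm hf d (C.ball_rr hz hV))
  have n1 := mem_ball_zero_iff.1 m.2
  have n2 := mem_ball_zero_iff.1 m'.2
  obtain ⟨m1, m2⟩ := C.mem_dm H hm (hf'.fg C hg) n1 n2
    ((C.ge_fg H hf' hg (C.Dm_of_lt H hm hf' n2)).trans e.symm)
  exact ⟨g, hg, w, m.1, m1, m2 ▸ m'.1⟩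

/-- a chart point on an axis is fixed by the return map -/
lemma axis_ch {l : ℝ} (hf : C.Frm f) (hz : ‖z‖ < C.rr m) (h : C.Axis g (C.hy f z.1) (C.uv f z) l) :
    z ∈ C.dm f (fg g f) ∧ C.Tf f (fg g f) z = z ∧ C.tm f (fg g f) z = l :=
  C.Tf_of_gd H hm hf (hf.fg C h.deck) hz hz (by rw [C.hy_fg hf h.deck]; exact h.eq)
    (by rw [C.uv_fg hf h.deck]; exact h.vel.symm)

/-- PERIODIC POINTS are dense in the charts -/
lemma per_ch (hf : C.Frm f) (hz : ‖z‖ < C.rr m) {V : Set (ZZ m)} (hV : V ∈ 𝓝 z) :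
    ∃ z₀ ∈ V, ‖z₀‖ < C.rr m ∧ ∃ g l, C.Axis g (C.hy f z₀.1) (C.uv f z₀) l := by
  have ha := H.a_pos
  have d := C.Dm_of_lt H hm hf hz
  obtain ⟨g, -, ⟨w, m, rfl⟩, hP⟩ := C.dense_per' H trT (C.ge_GG H hf d)
    (C.ge_mem_nhds H hm hf d (C.ball_rr hz hV))
  have n1 := mem_ball_zero_iff.1 m.2
  have u := C.un_uv H hf (C.Dm_of_lt H hm hf n1)
  obtain ⟨l, hl⟩ := hP.axis C H
  refine ⟨w, m.1, n1, g, l, ?_⟩
  have := hl (-C.b (C.ge f w).1 (C.hy f w.1))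
  rwa [show C.ft (C.ge f w).1 (C.ge f w).2 (-C.b (C.ge f w).1 (C.hy f w.1)) = C.hy f w.1 from
    C.ft_ep ha u, C.W_ge H hf (C.Dm_of_lt H hm hf n1)] at this

/-- a frame centred at a chart point -/
lemma centre (hf : C.Frm f) (hz : ‖z‖ < C.rr m) : ∃ f₀ : FF n N m, C.Frm f₀ ∧
    f₀.1 = C.hy f z.1 ∧ f₀.2.1 = C.uv f z ∧ C.ge f₀ 0 = C.ge f z ∧ z ∈ C.dm f f₀ ∧
    C.Tf f f₀ z = 0 ∧ C.tm f f₀ z = 0 := by
  have d := C.Dm_of_lt H hm hf hz
  have u := C.un_uv H hf d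
  obtain ⟨L, hL⟩ := C.exists_frm hm u
  refine ⟨_, hL, rfl, rfl, C.ge_zero H hL, C.Tf_of_gd H hm hf hL hz
    (by simpa using C.rr_pos H hm) ?_ ?_⟩
  · rw [C.gd_zero]; exact C.hy_zero _
  · rw [C.uv_zero H hL, C.vel_zero]

end Crest.Agent.N221.Cov
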