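import Crest.Agent.N221.Ex.Pj
import Crest.Agent.N221.Ch.Unif
import Crest.Agent.N221.X.Hol
import Crest.Agent.N221.X.Int

/-!
Row 221, block Dy (helper72): uniform Lipschitz and Hölder bounds in the charts.
-/

set_option autoImplicit false

open MeasureTheory Set Filter Topology Metric
open scoped ContDiff RealInnerProductSpace ENNReal
open Crest.GeometryTopology.Submanifold
open Crest.Agent.R241.DDefs Crest.Agent.R241.D2
open Crest.Agent.R208.J Crest.Agent.R208.L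

noncomputable section

namespace Crest.Agent.N221

section
variable {P E V : Type} [NormedAddCommGroup E] [NormedSpace ℝ E] [NormedAddCommGroup V]
  [NormedSpace ℝ V] {F : P → E → V} {A : P → Prop} {R : ℝ}

/-- bounded jets give a uniform Lipschitz constant -/
lemma JB.lip (h : JB F {k | A k.1 ∧ ‖k.2‖ ≤ R})
    (hd : ∀ p x, A p → ‖x‖ ≤ R → DifferentiableAt ℝ (F p) x) :
    ∃ L > 0, ∀ p x x', A p → ‖x‖ ≤ R → ‖x'‖ ≤ R → ‖F p x - F p x'‖ ≤ L * ‖x - x'‖ := by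
  obtain ⟨B, hB⟩ := h 1
  refine ⟨|B| + 1, by positivity, fun p x x' hp hx hx' =>
    (convex_closedBall (0 : E) R).norm_image_sub_le_of_norm_fderiv_le (𝕜 := ℝ)
      (fun y hy => hd p y hp (by simpa using hy)) (fun y hy => ?_) (by simpa) (by simpa)⟩
  have := hB (p, y) ⟨hp, by simpa using hy⟩
  rw [norm_iteratedFDeriv_one] at this
  linarith [le_abs_self B]

lemma JB.bd0 {K : Set (P × E)} (h : JB F K) : ∃ B > 0, ∀ k ∈ K, ‖F k.1 k.2‖ ≤ B := by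
  obtain ⟨B, hB⟩ := h 0
  refine ⟨|B| + 1, by positivity, fun k hk => ?_⟩
  have := hB k hk
  rw [norm_iteratedFDeriv_zero] at this
  linarith [le_abs_self B]

end

lemma norm_flp_sub {m : ℕ} (z z' : ZZ m) : ‖flp z - flp z'‖ = ‖z - z'‖ := by
  simp only [flp, Prod.norm_def, Prod.fst_sub, Prod.snd_sub]
  rw [neg_sub_neg, norm_sub_rev z'.2]

lemma norm_flp' {m : ℕ} (z : ZZ m) : ‖flp z‖ = ‖z‖ := by simp [flp, Prod.norm_def]

namespace Cov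

variable {n N m : ℕ} {a : ℝ} {S : Set (Euc N)} {G : Geo n N (-(a ^ 2)) S} (C : Cov G)

/-- uniform jets for deck invariant families over the frames -/
lemma jb_frm {E V : Type} [NormedAddCommGroup E] [NormedSpace ℝ E] [ProperSpace E]
    [NormedAddCommGroup V] [NormedSpace ℝ V] {F : FF n N m → E → V} {R : ℝ}
    (h : JC F {k | C.Frm k.1 ∧ ‖k.2‖ ≤ R})
    (hinv : ∀ f g, C.Frm f → C.Deck g → F (fg g f) = F f) : JB F {k | C.Frm k.1 ∧ ‖k.2‖ ≤ R} := by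
  obtain ⟨D, -, hD⟩ := C.exists_deck
  refine ((h.mono (K' := {f | C.Frm f ∧ ‖f.1‖ ≤ D} ×ˢ closedBall 0 R)
    fun k hk => ⟨hk.1.1, by simpa using hk.2⟩).bdd
    ((C.isCompact_frm D).prod (isCompact_closedBall _ _))).of_germ fun k hk => ?_
  obtain ⟨g, hg, h1⟩ := hD k.1.1
  exact ⟨fg g k.1, ⟨⟨hk.1.fg C hg, h1⟩, by simpa using hk.2⟩, by rw [hinv _ g hk.1 hg]⟩

variable (H : Hyp n N a S)
include H

lemma W_hy_lip (R : ℝ) : ∃ K > 0, ∀ (f : FF n N m) (ξ : Euc n) (q q' : Euc m), C.Frm f → ‖ξ‖ = 1 →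
    ‖q‖ ≤ R → ‖q'‖ ≤ R → ‖C.W ξ (C.hy f q) - C.W ξ (C.hy f q')‖ ≤ K * ‖q - q'‖ := by
  have h := C.unif_jb H (C.jc_W H (m := m)) (fun f ξ g hf hg hξ => funext fun q => by
    simp only [C.hy_fg hf hg, C.W_act H.a_pos hg hξ]) R
  obtain ⟨K, hK, h⟩ := JB.lip (A := fun p : FF n N m × Euc n => C.Frm p.1 ∧ ‖p.2‖ = 1)
    (h.mono fun k hk => ⟨hk.1.1, hk.1.2, hk.2⟩) fun p x hp _ =>
      ((C.jc_W H).sm (p, x) hp.2).differentiableAt (by simp)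
  exact ⟨K, hK, fun f ξ q q' hf hξ => h (f, ξ) q q' ⟨hf, hξ⟩⟩

lemma HH_lip (R : ℝ) : ∃ K > 0, ∀ (f : FF n N m) (ξ : Euc n) (q q' : Euc m), C.Frm f → ‖ξ‖ = 1 →
    ‖q‖ ≤ R → ‖q'‖ ≤ R → ‖C.HH f ξ q - C.HH f ξ q'‖ ≤ K * ‖q - q'‖ := by
  obtain ⟨K, hK, h⟩ := JB.lip (A := fun p : FF n N m × Euc n => C.Frm p.1 ∧ ‖p.2‖ = 1)
    ((C.jb_HH H R).mono fun k hk => ⟨hk.1.1, hk.1.2, hk.2⟩) fun p x hp _ =>
      ((C.jc_HH H).sm (p, x) hp.2).differentiableAt (by simp)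
  exact ⟨K, hK, fun f ξ q q' hf hξ => h (f, ξ) q q' ⟨hf, hξ⟩⟩

omit H in
lemma Jh_bd (R : ℝ) : ∃ K > 0, ∀ (f : FF n N m) (q : Euc m), C.Frm f → ‖q‖ ≤ R →
    ‖C.Jh f q‖ ≤ K := by
  obtain ⟨K, hK, h⟩ := (C.jb_frm (JC.of_smooth (K := {k | C.Frm k.1 ∧ ‖k.2‖ ≤ R}) fun k _ =>
    (C.contDiff_Jh (m := m)).contDiffAt) fun f g hf hg => C.Jh_fg hf hg).bd0
  exact ⟨K, hK, fun f q hf hq => h (f, q) ⟨hf, hq⟩⟩

/-- all jets of the leaves are Hölder in the boundary point, with ONE exponent -/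
theorem hol_jet : ∃ θ : ℝ, 0 < θ ∧ θ ≤ 1 ∧ ∀ (j : ℕ) (R : ℝ), ∃ K > 0, ∀ (f : FF n N m)
    (ξ ξ' : Euc n) (q q₀ : Euc m), C.Frm f → ‖ξ‖ = 1 → ‖ξ'‖ = 1 → ‖q‖ ≤ R → ‖q₀‖ ≤ R →
    ‖iteratedFDeriv ℝ j (C.pq f ξ) q - iteratedFDeriv ℝ j (C.pq f ξ') q‖ ≤
      K * ‖C.W ξ (C.hy f q₀) - C.W ξ' (C.hy f q₀)‖ ^ θ := by
  have ha := H.a_pos
  obtain ⟨θ, K, hθ, hθ1, hK, h⟩ := C.hol_W H
  refine ⟨θ / 2, by positivity, by linarith, fun j R => ?_⟩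
  obtain ⟨c, hc, hi⟩ := X.int_all (2 * j + 1)
  obtain ⟨B, hB⟩ := C.jb_pq H (m := m) (R + 1) (2 * j + 1)
  obtain ⟨J, hJ, hJ'⟩ := C.Jh_bd (m := m) (R + 1)
  set K₁ := J * (K * Real.exp (a * (2 * R + 1))) * 2 with hK₁
  refine ⟨c * (K₁ + 2 * |B|), by positivity, fun f ξ ξ' q q₀ hf hξ hξ' hq hq₀ => ?_⟩
  have h0 := bas_ne0 hξ
  have h0' := bas_ne0 hξ'
  set δ := ‖C.W ξ (C.hy f q₀) - C.W ξ' (C.hy f q₀)‖ with hδ
  rcases (norm_nonneg _ : 0 ≤ δ).eq_or_lt with e | hpos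
  · rw [C.W_inj ha hξ hξ' (sub_eq_zero.1 (norm_eq_zero.1 e.symm)), sub_self, norm_zero]
    positivity
  have hδ2 : δ ≤ 2 := (norm_sub_le _ _).trans (by
    rw [(C.un_W ha h0 _).norm, (C.un_W ha h0' _).norm]; norm_num)
  set v := (δ / 2) ^ (θ / 2) with hv
  have v0 : 0 < v := by positivity
  have v1 : v ≤ 1 := Real.rpow_le_one (by positivity) (by linarith) (by positivity)
  have vv : δ ^ θ ≤ 2 * v ^ 2 := by
    rw [hv, ← Real.rpow_natCast, ← Real.rpow_mul (by positivity), show θ / 2 * (2 : ℕ) = θ by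
      push_cast; ring, Real.div_rpow hpos.le zero_le_two, mul_div_left_comm]
    refine le_mul_of_one_le_right (by positivity) ((one_le_div (by positivity)).2 ?_)
    simpa using Real.rpow_le_rpow_of_exponent_le one_le_two hθ1
  set ε := v ^ ((j + 1 : ℕ) : ℝ)⁻¹ with hε
  have e0 : 0 < ε := by positivity
  have e1 : ε ≤ 1 := Real.rpow_le_one v0.le v1 (by positivity)
  have ee : ε ^ (j + 1) = v := Real.rpow_inv_natCast_pow v0.le (by omega)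
  have hb : ∀ y ∈ ball q ε, ‖y‖ ≤ R + 1 := fun y hy => by
    have := norm_sub_norm_le y q; rw [mem_ball_iff_norm] at hy; linarith
  have c1 := C.contDiff_pq H h0 f
  have c2 := C.contDiff_pq H h0' f
  have := hi _ _ (C.pq f ξ - C.pq f ξ') q ε (K₁ * v ^ 2) (2 * |B|) e0
    ((c1.sub c2).of_le (Jet.le_inf _)).contDiffOn (fun y hy => ?_) (fun y hy => ?_) j (by omega) q
    (mem_ball_self (by positivity))
  · rw [iteratedFDeriv_sub_apply (c1.of_le (Jet.le_inf _)).contDiffAt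
      (c2.of_le (Jet.le_inf _)).contDiffAt, show 2 * j + 1 - j = j + 1 by omega, ee] at this
    refine this.trans ?_
    rw [mul_assoc c, add_mul]
    have hvδ : v ≤ δ ^ (θ / 2) := Real.rpow_le_rpow (by positivity) (by linarith) (by positivity)
    gcongr
    rw [div_le_iff₀ (by positivity), mul_assoc K₁, sq]
    gcongr
    rw [← ee, pow_succ]; exact mul_le_of_le_one_right (by positivity) e1
  · have h1 := h (C.hy f q₀) (C.hy f y) ξ ξ' h0 h0'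
    have h2 : C.dd (C.hy f q₀) (C.hy f y) ≤ 2 * R + 1 := by
      have := C.dd_triangle ha.le (C.hy f q₀) f.1 (C.hy f y)
      rw [C.dd_comm _ f.1, C.dd_hy hf, C.dd_hy hf] at this
      linarith [hb y hy]
    rw [Pi.sub_apply, pq, pq, ← map_sub]
    refine (ContinuousLinearMap.le_opNorm _ _).trans ?_
    rw [LinearIsometryEquiv.norm_map, hK₁, mul_assoc, mul_assoc]
    gcongr
    · exact hJ' f y hf (hb y hy)
    · refine h1.trans ?_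
      gcongr
  · rw [iteratedFDeriv_sub_apply (c1.of_le (Jet.le_inf _)).contDiffAt
      (c2.of_le (Jet.le_inf _)).contDiffAt]
    linarith [norm_sub_le (iteratedFDeriv ℝ (2 * j + 1) (C.pq f ξ) y)
      (iteratedFDeriv ℝ (2 * j + 1) (C.pq f ξ') y), hB ((f, ξ), y) ⟨hf, hξ, hb y hy⟩,
      hB ((f, ξ'), y) ⟨hf, hξ', hb y hy⟩, le_abs_self B]

variable (hm : m + 1 = n)
include hm

lemma jb_uv : JB (C.uv (m := m)) {k | C.Frm k.1 ∧ ‖k.2‖ ≤ 2 * C.rr m} :=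
  C.jb_frm (JC.of_smooth fun _ hk => C.contDiffAt_uv H hk.1 (C.Dm_of_le H hm hk.1 hk.2))
    fun _ _ hf hg => C.uv_fg hf hg

lemma uv_lip : ∃ K > 0, ∀ (f : FF n N m) (z z' : ZZ m), C.Frm f → ‖z‖ ≤ 2 * C.rr m →
    ‖z'‖ ≤ 2 * C.rr m → ‖C.uv f z - C.uv f z'‖ ≤ K * ‖z - z'‖ :=
  (C.jb_uv H hm).lip fun f z hf hz => ((C.contDiffAt_uv H hf (C.Dm_of_le H hm hf hz)).comp z
    (contDiffAt_const.prodMk contDiffAt_id)).differentiableAt (by simp)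

/-- the end points are Lipschitz for the visual distance at the foot point -/
lemma W_ge_lip : ∃ K > 0, ∀ (f : FF n N m) (z z' : ZZ m), C.Frm f → ‖z‖ ≤ 2 * C.rr m →
    ‖z'‖ ≤ 2 * C.rr m →
    ‖C.W (C.ge f z).1 (C.hy f z.1) - C.W (C.ge f z').1 (C.hy f z.1)‖ ≤ K * ‖z - z'‖ ∧
    ‖C.W (C.ge f z).2 (C.hy f z.1) - C.W (C.ge f z').2 (C.hy f z.1)‖ ≤ K * ‖z - z'‖ := by
  obtain ⟨K, hK, h⟩ := C.uv_lip H hm
  obtain ⟨K', hK', h'⟩ := C.W_hy_lip H (m := m) (2 * C.rr m)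
  refine ⟨K + K', by positivity, fun f z z' hf hz hz' => ?_⟩
  have d := C.Dm_of_le H hm hf hz
  have d' := C.Dm_of_le H hm hf hz'
  have g' := C.ge_GG H hf d'
  have h1 := h f z z' hf hz hz'
  have h2 := fun ξ hξ => (h' f ξ z'.1 z.1 hf hξ ((norm_fst_le _).trans hz')
    ((norm_fst_le _).trans hz)).trans (mul_le_mul_of_nonneg_left (show _ ≤ ‖z - z'‖ by
      rw [norm_sub_rev]; exact norm_fst_le (z - z')) hK'.le)
  constructor
  · have h3 := h2 _ g'.1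
    rw [C.W_ge H hf d'] at h3
    rw [C.W_ge H hf d]
    linarith [norm_sub_le_norm_sub_add_norm_sub (C.uv f z) (C.uv f z')
      (C.W (C.ge f z').1 (C.hy f z.1))]
  · have h3 := h2 _ g'.2.1
    rw [C.W_ge' H hf d'] at h3
    rw [C.W_ge' H hf d]
    rw [norm_sub_rev, ← neg_sub_neg] at h1
    linarith [norm_sub_le_norm_sub_add_norm_sub (-C.uv f z) (-C.uv f z')
      (C.W (C.ge f z').2 (C.hy f z.1))]

/-- HÖLDER HOLONOMY: all jets of the two leaves through `z` depend Hölder continuously on `z` -/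
theorem hol_leaf : ∃ θ : ℝ, 0 < θ ∧ θ ≤ 1 ∧ ∀ (j : ℕ) (R : ℝ), ∃ K > 0, ∀ (f : FF n N m)
    (z z' : ZZ m) (q : Euc m), C.Frm f → ‖z‖ ≤ 2 * C.rr m → ‖z'‖ ≤ 2 * C.rr m → ‖q‖ ≤ R →
    ‖iteratedFDeriv ℝ j (C.pq f (C.ge f z).1) q - iteratedFDeriv ℝ j (C.pq f (C.ge f z').1) q‖ ≤
      K * ‖z - z'‖ ^ θ ∧
    ‖iteratedFDeriv ℝ j (C.pq f (C.ge f z).2) q - iteratedFDeriv ℝ j (C.pq f (C.ge f z').2) q‖ ≤
      K * ‖z - z'‖ ^ θ := by
  obtain ⟨θ, hθ, hθ1, h⟩ := C.hol_jet H (m := m)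
  obtain ⟨K', hK', h'⟩ := C.W_ge_lip H hm
  refine ⟨θ, hθ, hθ1, fun j R => ?_⟩
  obtain ⟨K, hK, h⟩ := h j (max R (2 * C.rr m))
  refine ⟨K * K' ^ θ, by positivity, fun f z z' q hf hz hz' hq => ?_⟩
  have g := C.ge_GG H hf (C.Dm_of_le H hm hf hz)
  have g' := C.ge_GG H hf (C.Dm_of_le H hm hf hz')
  have h1 := fun ξ ξ' hξ hξ' => h f ξ ξ' q z.1 hf hξ hξ' (le_max_of_le_left hq)
    (le_max_of_le_right ((norm_fst_le _).trans hz))
  rw [mul_assoc, ← Real.mul_rpow hK'.le (norm_nonneg _)]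
  exact ⟨(h1 _ _ g.1 g'.1).trans (by gcongr; exact (h' f z z' hf hz hz').1),
    (h1 _ _ g.2.1 g'.2.1).trans (by gcongr; exact (h' f z z' hf hz hz').2)⟩

/-- HÖLDER SLOPES -/
theorem hol_S : ∃ θ K : ℝ, 0 < θ ∧ θ ≤ 1 ∧ 0 < K ∧ ∀ (f : FF n N m) (z z' : ZZ m), C.Frm f →
    ‖z‖ ≤ 2 * C.rr m → ‖z'‖ ≤ 2 * C.rr m →
    ‖C.Ss f z - C.Ss f z'‖ ≤ K * ‖z - z'‖ ^ θ ∧ ‖C.Su f z - C.Su f z'‖ ≤ K * ‖z - z'‖ ^ θ := by
  obtain ⟨θ, hθ, hθ1, h⟩ := C.hol_leaf H hm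
  obtain ⟨K, hK, h⟩ := h 1 (2 * C.rr m)
  obtain ⟨L, hL, h'⟩ := C.HH_lip H (m := m) (2 * C.rr m)
  refine ⟨θ, K + L, hθ, hθ1, by positivity, fun f z z' hf hz hz' => ?_⟩
  have g' := C.ge_GG H hf (C.Dm_of_le H hm hf hz')
  have hq := (norm_fst_le _).trans hz
  have key : ∀ ξ ξ', ‖ξ'‖ = 1 → ‖iteratedFDeriv ℝ 1 (C.pq f ξ) z.1 -
      iteratedFDeriv ℝ 1 (C.pq f ξ') z.1‖ ≤ K * ‖z - z'‖ ^ θ →
      ‖C.HH f ξ z.1 - C.HH f ξ' z'.1‖ ≤ (K + L) * ‖z - z'‖ ^ θ := fun ξ ξ' hξ' h1 => by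
    have e : ‖C.HH f ξ z.1 - C.HH f ξ' z.1‖ ≤ K * ‖z - z'‖ ^ θ :=
      ContinuousLinearMap.opNorm_le_bound _ (by positivity) fun e => by
        have := (iteratedFDeriv ℝ 1 (C.pq f ξ) z.1 -
          iteratedFDeriv ℝ 1 (C.pq f ξ') z.1).le_of_opNorm_le h1 fun _ => e
        simpa [HH] using this
    have h2 := h' f ξ' z.1 z'.1 hf hξ' hq ((norm_fst_le _).trans hz')
    have h3 : ‖z.1 - z'.1‖ ≤ ‖z - z'‖ ^ θ := (norm_fst_le (z - z')).trans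
      (Real.self_le_rpow_of_le_one (norm_nonneg _) ((norm_sub_le _ _).trans (by
        linarith [(C.rad H hm).le])) hθ1)
    nlinarith [norm_sub_le_norm_sub_add_norm_sub (C.HH f ξ z.1) (C.HH f ξ' z.1) (C.HH f ξ' z'.1)]
  refine ⟨key _ _ g'.1 (h f z z' z.1 hf hz hz' hq).1, ?_⟩
  rw [Su, Su, neg_sub_neg, norm_sub_rev]
  exact key _ _ g'.2.1 (h f z z' z.1 hf hz hz' hq).2

theorem hol_pj : ∃ θ K : ℝ, 0 < θ ∧ θ ≤ 1 ∧ 0 < K ∧ ∀ (f : FF n N m) (z z' : ZZ m), C.Frm f →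
    ‖z‖ ≤ 2 * C.rr m → ‖z'‖ ≤ 2 * C.rr m → ‖C.pj f z - C.pj f z'‖ ≤ K * ‖z - z'‖ ^ θ := by
  have ha := H.a_pos
  obtain ⟨θ, K, hθ, hθ1, hK, h⟩ := C.hol_S H hm
  obtain ⟨B, -, hB⟩ := C.norm_pj H hm
  set D : Set ((Euc m →L[ℝ] Euc m) × (Euc m →L[ℝ] Euc m)) := closedBall 0 B ∩
    ⋂ e, {k | a / 16 * ‖e‖ ^ 2 ≤ ⟪k.2 e, e⟫ - ⟪k.1 e, e⟫}
  have cv : Convex ℝ D := (convex_closedBall _ _).inter (convex_iInter fun e x hx y hy s t hs ht e' => by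
    simp only [mem_ofPred_eq, Prod.snd_add, Prod.fst_add, Prod.smul_snd, Prod.smul_fst,
      add_apply, smul_apply, inner_add_left,
      real_inner_smul_left] at hx hy ⊢
    obtain rfl : s = 1 - t := by linarith
    nlinarith [mul_le_mul_of_nonneg_left hx hs, mul_le_mul_of_nonneg_left hy ht])
  have cp : IsCompact D := (isCompact_closedBall _ _).inter_right
    (isClosed_iInter fun e => isClosed_le continuous_const (by fun_prop))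
  have low : ∀ k ∈ D, ∀ e, a / 16 * ‖e‖ ≤ ‖(k.2 - k.1) e‖ := fun k hk e => by
    have h1 : a / 16 * ‖e‖ ^ 2 ≤ _ := mem_iInter.1 hk.2 e
    rw [← inner_sub_left] at h1
    rcases (norm_nonneg e).eq_or_lt with h0 | h0
    · rw [← h0, mul_zero]; exact norm_nonneg _
    · exact le_of_mul_le_mul_right (by
        simpa [sq, mul_assoc] using h1.trans (real_inner_le_norm _ _)) h0
  obtain ⟨L, hL⟩ := ContDiffOn.exists_lipschitzOnWith (n := ∞) (s := D)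
    (f := fun k => pjo k.1 k.2) (fun k hk => (contDiffAt_pjo (isUnit_of_low
      (c := a / 16) (by positivity) (low k hk)).1).contDiffWithinAt) (by simp) cv cp
  · have mem : ∀ f z, C.Frm f → ‖z‖ ≤ 2 * C.rr m → (C.Ss f z, C.Su f z) ∈ D := fun f z hf hz =>
      ⟨by simpa [Prod.norm_def] using ⟨(hB f z hf hz).1, (hB f z hf hz).2.1⟩,
        mem_iInter.2 fun e => by
          have := C.Su_Ss H hm hf hz e
          simp only [mem_ofPred_eq]; linarith [this.1, this.2]⟩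
    refine ⟨θ, (L + 1) * K, hθ, hθ1, by positivity, fun f z z' hf hz hz' => ?_⟩
    refine (hL.norm_sub_le (mem f z hf hz) (mem f z' hf hz')).trans ?_
    rw [mul_assoc]
    gcongr
    · linarith
    · exact max_le (h f z z' hf hz hz').1 (h f z z' hf hz hz').2

end Cov

end Crest.Agent.N221
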