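import Crest.Agent.N221.D.Dyn

/-!
Row 221, block Dy (helper85): dynamical inputs of step A1 on the boundary (no charts).

* `sweep`, `hit`: the translates of ONE piece of ONE leaf cross every unit plaque, uniformly,
* `trans2`: two open sets of geodesics are joined by a deck map,
* `const_of_inv`: an invariant continuous function on an open invariant set is constant.
-/

set_option autoImplicit false
set_option linter.unusedSectionVars false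
set_option linter.unusedVariables false

open MeasureTheory Set Filter Topology
open scoped ContDiff RealInnerProductSpace ENNReal
open Crest.GeometryTopology.Submanifold
open Crest.Agent.R241.DDefs Crest.Agent.R241.D2
open Crest.Agent.R208.J Crest.Agent.R208.L

noncomputable section

namespace Crest.Agent.N221.Cov

variable {n N : ℕ} {a : ℝ} {S : Set (Euc N)} {G : Geo n N (-(a ^ 2)) S} (C : Cov G)

variable {x y z ξ η ζ η₀ ξ₀ : Euc n} {v w : Euc N} {g : Euc n → Euc n}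

/-- action of a deck map on pairs of boundary points -/
def act2 (g : Euc n → Euc n) (p : Euc n × Euc n) : Euc n × Euc n := (C.act g p.1, C.act g p.2)

variable (H : Hyp n N a S)
include H

omit C in
/-- the sphere has no isolated point -/
lemma near_ne (hξ : ‖ξ‖ = 1) (ζ : Euc n) {ε : ℝ} (hε : 0 < ε) :
    ∃ ξ', ‖ξ'‖ = 1 ∧ ‖ξ' - ξ‖ < ε ∧ ξ' ≠ ζ := by
  by_cases e : ξ = ζ
  · have hr : 1 < Module.rank ℝ (Euc n) := by
      rw [← Module.finrank_eq_rank, finrank_euclideanSpace_fin]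
      exact_mod_cast (by have := H.hn; omega : 1 < n)
    obtain ⟨u, hu, h1, -⟩ := dyn_third H ξ ξ
    have hp := (isPreconnected_sphere hr (0 : Euc n) 1).preperfect_of_nontrivial
      ⟨u, mem_sphere_zero_iff_norm.2 hu, ξ, mem_sphere_zero_iff_norm.2 hξ, h1⟩ ξ
      (mem_sphere_zero_iff_norm.2 hξ)
    obtain ⟨u', ⟨h2, h3⟩, h4⟩ := accPt_iff_nhds.1 hp _ (Metric.ball_mem_nhds ξ hε)
    exact ⟨u', mem_sphere_zero_iff_norm.1 h3, mem_ball_iff_norm.1 h2, e ▸ h4⟩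
  · exact ⟨ξ, hξ, by simpa using hε, e⟩

lemma act_inv (hg : C.Deck g) {k : Euc n → Euc n} (hk : C.Deck k) (i : ∀ x, k (g x) = x)
    (hξ : ‖ξ‖ = 1) : C.act k (C.act g ξ) = ξ := by
  rw [← C.act_comp H.a_pos hk hg (bas_ne0 hξ), show k ∘ g = id from funext i,
    C.act_id H.a_pos hξ]

/-- a translate of the leaf of `ζ` passes near `(ξ, η)` at a point coming from near `(ζ, η₀)` -/
lemma sweep (hT : TrS) (h : (ξ, η) ∈ GG n) (h0 : (ζ, η₀) ∈ GG n) {ε : ℝ} (hε : 0 < ε) :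
    ∃ g ξ', C.Deck g ∧ ‖ξ'‖ = 1 ∧ C.act g ξ' = ζ ∧ ‖ξ' - ξ‖ < ε ∧ ‖C.act g η - η₀‖ < ε := by
  have ha := H.a_pos
  have p1 : 0 < ‖η - ξ‖ := norm_pos_iff.2 (sub_ne_zero.2 h.2.2.symm)
  have p2 : 0 < ‖ζ - η₀‖ := norm_pos_iff.2 (sub_ne_zero.2 h0.2.2)
  obtain ⟨δ, δ0, b1, b2, b3⟩ : ∃ δ : ℝ, 0 < δ ∧ 3 * δ ≤ ε ∧ 3 * δ ≤ ‖η - ξ‖ ∧ 3 * δ ≤ ‖ζ - η₀‖ :=
    ⟨min ε (min ‖η - ξ‖ ‖ζ - η₀‖) / 3, by positivity,
      by linarith [min_le_left ε (min ‖η - ξ‖ ‖ζ - η₀‖)],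
      by linarith [min_le_right ε (min ‖η - ξ‖ ‖ζ - η₀‖), min_le_left ‖η - ξ‖ ‖ζ - η₀‖],
      by linarith [min_le_right ε (min ‖η - ξ‖ ‖ζ - η₀‖), min_le_right ‖η - ξ‖ ‖ζ - η₀‖]⟩
  obtain ⟨ξ1, u1, d1, n1⟩ := near_ne H h.1 η₀ δ0
  obtain ⟨γ, _, _, ⟨y, w, l, hA, rfl, rfl⟩, d2, d3⟩ :=
    C.dense_per H hT (ξ := ξ1) (η := η₀) ⟨u1, h0.2.1, n1⟩ δ0
  obtain ⟨k, hk, i1, i2⟩ := hA.deck.inv C
  have hB := hA.inv C hk i1
  have t1 := hA.ns_tendsto C ha h0.1 fun e => by rw [← e] at d3; dsimp only at d3 b3; linarith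
  have t2 := hB.ns_tendsto C ha h.2.1 fun e => by
    rw [neg_neg] at e
    rw [← e] at d2
    dsimp only at d2 d1 b2
    linarith [norm_sub_le_norm_sub_add_norm_sub η ξ1 ξ]
  obtain ⟨j, j1, j2⟩ := ((Metric.tendsto_nhds.1 t1 _ δ0).and
    (Metric.tendsto_nhds.1 t2 _ δ0)).exists
  rw [dist_eq_norm] at j1 j2
  dsimp only at j1 j2 d1
  refine ⟨k^[j], C.act γ^[j] ζ, hk.iterate C j,
    C.norm_act ha (hA.deck.iterate C j) (bas_ne0 h0.1),
    C.act_inv H (hA.deck.iterate C j) (hk.iterate C j)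
      (Function.LeftInverse.iterate (f := γ) (g := k) i1 j) h0.1, ?_, ?_⟩
  · linarith [norm_sub_le_norm_sub_add_norm_sub (C.act γ^[j] ζ) (C.ep y w) ξ1,
      norm_sub_le_norm_sub_add_norm_sub (C.act γ^[j] ζ) ξ1 ξ]
  · linarith [norm_sub_le_norm_sub_add_norm_sub (C.act k^[j] η) (C.ep y (-w)) η₀]

omit H in
lemma cpt_un (D : ℝ) : IsCompact {p : Euc n × Euc N | ‖p.1‖ ≤ D ∧ C.Un p.1 p.2} :=
  ((isCompact_closedBall (0 : Euc n) D).prod
    (isCompact_closedBall (0 : Euc N) 1)).of_isClosed_subset ((isClosed_le continuous_fst.norm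
    continuous_const).inter ((isClosed_US G).preimage (f := fun p : Euc n × Euc N =>
      (C.pr p.1, p.2)) ((C.pr_smooth.continuous.comp continuous_fst).prodMk continuous_snd)))
    fun p hp => ⟨mem_closedBall_zero_iff.2 hp.1, mem_closedBall_zero_iff.2 hp.2.norm.le⟩

/-- UNIFORM SWEEP: seen from any unit vector `(x, v)`, a translate `g⁻¹ ζ` of `ζ` is `ρ`-close to
the forward end, the backward end is moved near `η₀`, and `g x` stays in a fixed ball -/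
lemma hit (hT : TrS) (h0 : (ζ, η₀) ∈ GG n) {ε ρ : ℝ} (hε : 0 < ε) (hρ : 0 < ρ) :
    ∃ R : ℝ, ∀ x v, C.Un x v → ∃ g ξ', C.Deck g ∧ ‖g x‖ ≤ R ∧ ‖ξ'‖ = 1 ∧ C.act g ξ' = ζ ∧
      ‖C.W ξ' x - v‖ < ρ ∧ ‖C.act g (C.ep x (-v)) - η₀‖ < ε := by
  have ha := H.a_pos
  obtain ⟨D, -, hD⟩ := C.exists_deck
  have key := (C.cpt_un D).induction_on
    (p := fun s => ∃ R : ℝ, ∀ p ∈ s, ∃ g ξ', C.Deck g ∧ ‖g p.1‖ ≤ R ∧ ‖ξ'‖ = 1 ∧ C.act g ξ' = ζ ∧
      ‖C.W ξ' p.1 - p.2‖ < ρ ∧ ‖C.act g (C.ep p.1 (-p.2)) - η₀‖ < ε)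
    ⟨0, fun _ h => h.elim⟩ (fun s t st ⟨R, h⟩ => ⟨R, fun p hp => h p (st hp)⟩)
    (fun s t ⟨R, h⟩ ⟨R', h'⟩ => ⟨max R R', fun p hp => hp.elim
      (fun hp => let ⟨g, ξ', a1, a2, a3⟩ := h p hp; ⟨g, ξ', a1, a2.trans (le_max_left _ _), a3⟩)
      (fun hp => let ⟨g, ξ', a1, a2, a3⟩ := h' p hp;
        ⟨g, ξ', a1, a2.trans (le_max_right _ _), a3⟩)⟩)
    (fun p hp => by
      have hG := C.ep_GG ha hp.2
      have c0 : ContinuousAt (fun ξ' => C.W ξ' p.1) (C.ep p.1 p.2) :=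
        ContinuousAt.comp (g := fun q : Euc n × Euc n => C.W q.1 q.2) (f := fun ξ' => (ξ', p.1))
          ((C.continuousOn_W ha).continuousAt ((isOpen_ne_fun continuous_fst
            continuous_const).mem_nhds (GG_sub hG).1)) (by fun_prop)
      obtain ⟨δ, δ0, hδ⟩ := Metric.continuousAt_iff.1 c0 ρ hρ
      obtain ⟨g, ξ', hg, u, e, d1, d2⟩ := C.sweep H hT hG h0 (lt_min δ0 hε)
      rw [lt_min_iff] at d1 d2
      have d3 := hδ (x := ξ') (by rw [dist_eq_norm]; exact d1.1)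
      rw [dist_eq_norm, C.W_ep_self ha hp.2] at d3
      have c1 : ContinuousAt (fun q : Euc n × Euc N => ‖C.W ξ' q.1 - q.2‖) p :=
        ((ContinuousAt.comp (g := fun q : Euc n × Euc n => C.W q.1 q.2)
          (f := fun q : Euc n × Euc N => (ξ', q.1))
          ((C.continuousOn_W ha).continuousAt ((isOpen_ne_fun continuous_fst
            continuous_const).mem_nhds (bas_ne0 u))) (by fun_prop)).sub continuousAt_snd).norm
      have c2 : ContinuousWithinAt (fun q : Euc n × Euc N => C.ep q.1 (-q.2))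
          {p | ‖p.1‖ ≤ D ∧ C.Un p.1 p.2} p :=
        ((C.continuousOn_ep ha).comp (f := fun p : Euc n × Euc N => (p.1, -p.2)) (by fun_prop)
          fun _ h => h.2.neg) p hp
      have c3 : ContinuousWithinAt (fun q : Euc n × Euc N => ‖C.act g (C.ep q.1 (-q.2)) - η₀‖)
          {p | ‖p.1‖ ≤ D ∧ C.Un p.1 p.2} p :=
        ((ContinuousAt.comp_continuousWithinAt (g := C.act g)
          (f := fun q : Euc n × Euc N => C.ep q.1 (-q.2)) ((C.continuousOn_act ha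
          hg).continuousAt (isOpen_ne.mem_nhds (GG_sub hG).2.1)) c2).sub
          continuousWithinAt_const).norm
      have c4 : ContinuousAt (fun q : Euc n × Euc N => ‖g q.1‖) p :=
        (hg.smooth.continuous.comp continuous_fst).continuousAt.norm
      refine ⟨_, inter_mem (inter_mem (mem_nhdsWithin_of_mem_nhds (c1.eventually_lt_const d3))
        (c3.eventually_lt_const d2.2)) (mem_nhdsWithin_of_mem_nhds
          (c4.eventually_lt_const (lt_add_one _))), ‖g p.1‖ + 1, fun q hq =>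
        ⟨g, ξ', hg, hq.2.le, u, e, hq.1.1, hq.1.2⟩⟩)
  obtain ⟨R, hR⟩ := key
  refine ⟨R, fun x v hv => ?_⟩
  obtain ⟨k, hk, hx⟩ := hD x
  obtain ⟨k', hk', i1, i2⟩ := hk.inv C
  obtain ⟨g, ξ', hg, b1, u, e, b2, b3⟩ := hR (k x, v) ⟨hx, (hk.un C).2 hv⟩
  have e1 := C.act_inv H hk' hk i2 u
  have u' := C.norm_act ha hk' (bas_ne0 u)
  refine ⟨g ∘ k, C.act k' ξ', hg.comp C hk, b1, u', ?_, ?_, ?_⟩
  · rw [C.act_comp ha hg hk (bas_ne0 u'), e1, e]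
  · rw [← C.W_act ha hk (bas_ne0 u'), e1]; exact b2
  · rw [C.act_comp ha hg hk (C.ep_ne_zero ha (hv.neg C)), C.act_ep ha hk (hv.neg C)]; exact b3

lemma act2_GG (hg : C.Deck g) {p : Euc n × Euc n} (h : p ∈ GG n) : C.act2 g p ∈ GG n :=
  C.act_GG H.a_pos hg h

lemma act2_comp (hg : C.Deck g) {k : Euc n → Euc n} (hk : C.Deck k) {p : Euc n × Euc n}
    (h : p ∈ GG n) : C.act2 (g ∘ k) p = C.act2 g (C.act2 k p) :=
  Prod.ext (C.act_comp H.a_pos hg hk (bas_ne0 h.1)) (C.act_comp H.a_pos hg hk (bas_ne0 h.2.1))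

lemma act2_inv (hg : C.Deck g) {k : Euc n → Euc n} (hk : C.Deck k) (i : ∀ x, k (g x) = x)
    {p : Euc n × Euc n} (h : p ∈ GG n) : C.act2 k (C.act2 g p) = p :=
  Prod.ext (C.act_inv H hg hk i h.1) (C.act_inv H hg hk i h.2.1)

lemma act2_swap (g : Euc n → Euc n) (p : Euc n × Euc n) :
    C.act2 g p.swap = (C.act2 g p).swap := rfl

lemma continuousAt_act2 (hg : C.Deck g) {p : Euc n × Euc n} (h : p ∈ GG n) :
    ContinuousAt (C.act2 g) p :=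
  (ContinuousAt.comp (g := C.act g) ((C.continuousOn_act H.a_pos hg).continuousAt
    (isOpen_ne.mem_nhds (bas_ne0 h.1))) continuousAt_fst).prodMk
  (ContinuousAt.comp (g := C.act g) ((C.continuousOn_act H.a_pos hg).continuousAt
    (isOpen_ne.mem_nhds (bas_ne0 h.2.1))) continuousAt_snd)

/-- one dense orbit, with neighbourhoods -/
lemma dense_orbit' (hT : TrS) : ∃ p₀ ∈ GG n, ∀ p ∈ GG n, ∀ U ∈ 𝓝[GG n] p,
    ∃ g, C.Deck g ∧ C.act2 g p₀ ∈ U := by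
  obtain ⟨ξ₀, η₀, h0, h⟩ := C.dense_orbit H hT
  refine ⟨(ξ₀, η₀), h0, fun p hp U hU => ?_⟩
  obtain ⟨ε, hε, hs⟩ := Metric.mem_nhdsWithin_iff.1 hU
  obtain ⟨g, hg, d1, d2⟩ := h p.1 p.2 hp ε hε
  rw [← dist_eq_norm] at d1 d2
  exact ⟨g, hg, hs ⟨max_lt d1 d2, C.act2_GG H hg h0⟩⟩

/-- TRANSITIVITY -/
lemma trans2 (hT : TrS) {p p' : Euc n × Euc n} (hp : p ∈ GG n) (hp' : p' ∈ GG n)
    {U U' : Set (Euc n × Euc n)} (hU : U ∈ 𝓝[GG n] p) (hU' : U' ∈ 𝓝[GG n] p') :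
    ∃ g, C.Deck g ∧ ∃ q ∈ GG n, q ∈ U ∧ C.act2 g q ∈ U' := by
  obtain ⟨p₀, h0, h⟩ := C.dense_orbit' H hT
  obtain ⟨g, hg, m⟩ := h p hp U hU
  obtain ⟨g', hg', m'⟩ := h p' hp' U' hU'
  obtain ⟨k, hk, i1, -⟩ := hg.inv C
  exact ⟨g' ∘ k, hg'.comp C hk, _, C.act2_GG H hg h0, m, by
    rw [C.act2_comp H hg' hk (C.act2_GG H hg h0), C.act2_inv H hg hk i1 h0]; exact m'⟩

/-- periodic pairs, with neighbourhoods -/
lemma dense_per' (hT : TrS) {p : Euc n × Euc n} (hp : p ∈ GG n) {U : Set (Euc n × Euc n)}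
    (hU : U ∈ 𝓝[GG n] p) : ∃ g, ∃ q ∈ U, C.Per g q.1 q.2 := by
  obtain ⟨ε, hε, hs⟩ := Metric.mem_nhdsWithin_iff.1 hU
  obtain ⟨g, ξ', η', hP, d1, d2⟩ := C.dense_per H hT (ξ := p.1) (η := p.2) hp hε
  rw [← dist_eq_norm] at d1 d2
  exact ⟨g, (ξ', η'), hs ⟨max_lt d1 d2, hP.GG C H⟩, hP⟩

/-- an invariant continuous function on a relatively open set is constant -/
lemma const_of_inv (hT : TrS) {X : Type*} [TopologicalSpace X] [T2Space X]
    {O : Set (Euc n × Euc n)} (hG : O ⊆ GG n) (hO : ∀ p ∈ O, O ∈ 𝓝[GG n] p)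
    {F : Euc n × Euc n → X} (hF : ContinuousOn F O)
    (hi : ∀ g, C.Deck g → ∀ p ∈ O, C.act2 g p ∈ O → F (C.act2 g p) = F p) :
    ∀ p ∈ O, ∀ p' ∈ O, F p = F p' := by
  intro p hp p' hp'
  by_contra hne
  obtain ⟨V, V', oV, oV', mV, mV', dj⟩ := t2_separation hne
  have m : ∀ q ∈ O, ∀ W, IsOpen W → F q ∈ W → O ∩ F ⁻¹' W ∈ 𝓝[GG n] q := fun q hq W oW mW =>
    inter_mem (hO q hq) (nhdsWithin_le_of_mem (hO q hq) (hF q hq (oW.mem_nhds mW)))
  obtain ⟨g, hg, q, -, m1, m2⟩ := C.trans2 H hT (hG hp) (hG hp') (m p hp V oV mV)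
    (m p' hp' V' oV' mV')
  exact disjoint_left.1 dj m1.2 (hi g hg q m1.1 m2.1 ▸ m2.2)

end Crest.Agent.N221.Cov
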