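import Crest.Agent.N221.Dy.Bd
import Crest.Agent.N221.C.Two

/-!
Row 221, block Dy (helper85): the END of the no-branching argument (note h57-5 (6)).

`Fi y w y' w' = cc ξ' η + b ξ' y' + b η y` (`ξ'` the forward end of `(y', w')`, `η` the backward
end of `(y, w)`) is invariant under the flow and under deck maps and bounded near the diagonal.
-/

set_option autoImplicit false
set_option linter.unusedSectionVars false
set_option linter.unusedVariables false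

open MeasureTheory Set Filter Topology
open scoped ContDiff RealInnerProductSpace ENNReal
open Crest.GeometryTopology.Submanifold
open Crest.Agent.R241.DDefs Crest.Agent.R241.D2
open Crest.Agent.R208.J Crest.Agent.R208.L

noncomputable section

namespace Crest.Agent.N221.Cov

variable {n N : ℕ} {a : ℝ} {S : Set (Euc N)} {G : Geo n N (-(a ^ 2)) S} (C : Cov G)

variable {x y y' z ξ η ζ η₀ ξ₀ ξ₁ : Euc n} {v w w' : Euc N} {g : Euc n → Euc n}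

/-- the invariant -/
def Fi (y : Euc n) (w : Euc N) (y' : Euc n) (w' : Euc N) : ℝ :=
  C.cc (C.ep y' w') (C.ep y (-w)) + C.b (C.ep y' w') y' + C.b (C.ep y (-w)) y

variable (H : Hyp n N a S)
include H

lemma b_ep_gd (hw : C.Un y w) (t : ℝ) : C.b (C.ep y w) (C.gd y w t) = C.b (C.ep y w) y - t := by
  have := C.b_gd H.a_pos (C.ep_ne_zero H.a_pos hw) y t
  rwa [C.W_ep_self H.a_pos hw] at this

lemma b_ep_gd_neg (hw : C.Un y w) (t : ℝ) :
    C.b (C.ep y (-w)) (C.gd y w t) = C.b (C.ep y (-w)) y + t := by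
  have := C.b_ep_gd H (hw.neg C) (-t)
  rwa [gd, neg_smul_neg, sub_neg_eq_add] at this

lemma Fi_flow (hw : C.Un y w) (hw' : C.Un y' w') (t : ℝ) :
    C.Fi (C.gd y w t) (C.vel y w t) (C.gd y' w' t) (C.vel y' w' t) = C.Fi y w y' w' := by
  simp only [Fi, C.ep_gd H.a_pos hw', C.ep_gd_neg H.a_pos hw, C.b_ep_gd H hw',
    C.b_ep_gd_neg H hw]
  ring

lemma Fi_deck (hg : C.Deck g) (hw : C.Un y w) (hw' : C.Un y' w')
    (h : C.ep y' w' ≠ C.ep y (-w)) : C.Fi (g y) w (g y') w' = C.Fi y w y' w' := by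
  have ha := H.a_pos
  simp only [Fi, ← C.act_ep ha hg hw', ← C.act_ep ha hg (hw.neg C),
    C.b_act ha hg (C.ep_ne_zero ha hw'), C.b_act ha hg (C.ep_ne_zero ha (hw.neg C)),
    C.cc_act ha hg (ξ := C.ep y' w') (η := C.ep y (-w))
      (GG_sub ⟨C.norm_ep ha hw', C.norm_ep ha (hw.neg C), h⟩)]
  ring

lemma Fi_self (hw : C.Un y w) : C.Fi y w y w = 0 := by
  have ha := H.a_pos
  rw [Fi, C.cc_eq ha (x := y) (GG_sub (C.ep_GG ha hw))
    (by rw [C.W_ep_self ha hw, C.W_ep_self ha (hw.neg C)])]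
  ring

/-- `W ξ` is uniformly Lipschitz -/
lemma W_lip : ∃ K : ℝ, 0 < K ∧ ∀ ξ y y', ξ ≠ 0 → C.dd y y' ≤ 1 →
    ‖C.W ξ y - C.W ξ y'‖ ≤ K * C.dd y y' := by
  have ha := H.a_pos
  obtain ⟨K, K0, h⟩ := C.up_close H
  refine ⟨K * (2 + 2 * Real.exp a), by positivity, fun ξ y y' hξ hd => ?_⟩
  have u := C.un_W ha hξ y
  have u' := C.un_W ha hξ y'
  have d0 := C.dd_nonneg y y'
  have h1 := (le_max_right _ _).trans (h y _ y' _ u u' 1 (Or.inl rfl))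
  have h2 := C.asy_tail ha u y' zero_le_one
  rw [C.asy_W ha hξ, C.bus_W ha hξ] at h2
  have h3 := u.dd_gd C 1 (1 - (C.b ξ y' - C.b ξ y))
  have h4 := C.abs_b_sub_le ha hξ y' y
  have h5 := C.dd_triangle ha.le (C.gd y (C.W ξ y) 1)
    (C.gd y (C.W ξ y) (1 - (C.b ξ y' - C.b ξ y))) (C.gd y' (C.W ξ y') 1)
  rw [sub_sub_cancel_left, abs_neg] at h3
  rw [C.dd_comm y' y] at h4
  rw [h3] at h5
  rw [C.dd_comm] at h2
  have h6 := Tw.sinh_le ha d0 hd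
  have h7 : 2 / a * Real.exp (-(a * 1)) * Real.sinh (a * C.dd y y') ≤
      2 * Real.exp a * C.dd y y' := by
    calc _ ≤ 2 / a * 1 * (a * Real.exp a * C.dd y y') := by
          have : 0 ≤ Real.sinh (a * C.dd y y') := Real.sinh_nonneg_iff.2 (by positivity)
          gcongr
          exact Real.exp_le_one_iff.2 (by linarith)
      _ = _ := by field_simp
  rw [dist_eq_norm] at h1
  exact h1.trans (by rw [mul_assoc]; gcongr; linarith)

/-- near the diagonal -/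
lemma Fi_near : ∃ ρ K : ℝ, 0 < ρ ∧ ∀ y w y' w', C.Un y w → C.Un y' w' → C.dd y y' ≤ ρ →
    ‖w - w'‖ ≤ ρ → C.ep y' w' ≠ C.ep y (-w) ∧ |C.Fi y w y' w'| ≤ K := by
  have ha := H.a_pos
  obtain ⟨K, K0, h⟩ := C.W_lip H
  refine ⟨1 / (K + 1), 1 + Real.log 4 / a, by positivity, fun y w y' w' hw hw' d1 d2 => ?_⟩
  have r1 : 1 / (K + 1) ≤ 1 := by rw [div_le_one (by positivity)]; linarith
  have n1 := C.ep_ne_zero ha hw'
  have h1 := h _ y y' n1 (d1.trans r1)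
  rw [C.W_ep_self ha hw'] at h1
  have h2 : ‖C.W (C.ep y' w') y - w‖ ≤ 1 := by
    have := norm_sub_le_norm_sub_add_norm_sub (C.W (C.ep y' w') y) w' w
    rw [norm_sub_rev w' w] at this
    have e : K * (1 / (K + 1)) + 1 / (K + 1) = 1 := by field_simp
    linarith [mul_le_mul_of_nonneg_left d1 K0.le]
  have h3 : 0 ≤ ⟪C.W (C.ep y' w') y, w⟫ := by
    have := norm_sub_sq_real (C.W (C.ep y' w') y) w
    rw [(C.un_W ha n1 y).norm, hw.norm] at this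
    nlinarith [norm_nonneg (C.W (C.ep y' w') y - w)]
  have ne : C.ep y' w' ≠ C.ep y (-w) := fun e => by
    rw [e, C.W_ep_self ha (hw.neg C), inner_neg_left, real_inner_self_eq_norm_sq, hw.norm] at h3
    linarith
  have hO := GG_sub (n := n) (a := (C.ep y' w', C.ep y (-w)))
    ⟨C.norm_ep ha hw', C.norm_ep ha (hw.neg C), ne⟩
  have h4 := C.neg_cc_le ha hO y
  have h5 := C.cc_upper ha hO y
  rw [C.W_ep_self ha (hw.neg C), inner_neg_right] at h5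
  have h6 : C.cc (C.ep y' w') (C.ep y (-w)) + C.b (C.ep y' w') y + C.b (C.ep y (-w)) y ≤
      Real.log 4 / a := by
    rw [le_div_iff₀' ha, Real.le_log_iff_exp_le (by norm_num)]
    nlinarith [Real.exp_pos (a * (C.cc (C.ep y' w') (C.ep y (-w)) + C.b (C.ep y' w') y +
      C.b (C.ep y (-w)) y))]
  have h7 := abs_le.1 ((C.abs_b_sub_le ha n1 y y').trans (d1.trans r1))
  have h8 : 0 ≤ Real.log 4 / a := div_nonneg (Real.log_nonneg (by norm_num)) ha.le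
  refine ⟨ne, abs_le.2 ⟨?_, ?_⟩⟩ <;> rw [Fi] <;> linarith [h7.1, h7.2]

/-- `cc` is bounded off the diagonal -/
lemma cc_bdd {δ : ℝ} (hδ : 0 < δ) : ∃ K : ℝ, ∀ ξ η, ‖ξ‖ = 1 → ‖η‖ = 1 → δ ≤ ‖ξ - η‖ →
    |C.cc ξ η| ≤ K := by
  have ha := H.a_pos
  refine ⟨Real.log (8 / δ ^ 2) / a, fun ξ η h1 h2 h3 => ?_⟩
  have hO := GG_sub (n := n) (a := (ξ, η))
    ⟨h1, h2, sub_ne_zero.1 (norm_pos_iff.1 (hδ.trans_le h3))⟩
  have h5 := C.cc_upper ha hO 0
  rw [C.W_zero ha hO.1, C.W_zero ha hO.2.1, C.inner_dir0 h1 h2, C.b_zero ha hO.1,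
    C.b_zero ha hO.2.1, add_zero, add_zero] at h5
  have h6 := norm_sub_sq_real ξ η
  rw [h1, h2] at h6
  rw [abs_of_nonneg (C.cc_nonneg ha hO), le_div_iff₀' ha, Real.le_log_iff_exp_le (by positivity),
    le_div_iff₀ (by positivity)]
  have h7 : δ ^ 2 ≤ ‖ξ - η‖ ^ 2 := by gcongr
  nlinarith [Real.exp_pos (a * C.cc ξ η)]

/-- END': closeness at some time bounds the sum of the levels -/
lemma end_lev {δ : ℝ} (hδ : 0 < δ) : ∃ ρ K : ℝ, 0 < ρ ∧ ∀ y w y' w' t, C.Un y w → C.Un y' w' →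
    C.dd (C.gd y w t) (C.gd y' w' t) ≤ ρ → ‖C.vel y w t - C.vel y' w' t‖ ≤ ρ →
    δ ≤ ‖C.ep y' w' - C.ep y (-w)‖ → |C.b (C.ep y' w') y' + C.b (C.ep y (-w)) y| ≤ K := by
  obtain ⟨ρ, K, ρ0, h⟩ := C.Fi_near H
  obtain ⟨K', h'⟩ := C.cc_bdd H hδ
  refine ⟨ρ, K + K', ρ0, fun y w y' w' t hw hw' d1 d2 d3 => ?_⟩
  have h1 := (h _ _ _ _ (hw.vel C t) (hw'.vel C t) d1 d2).2
  rw [C.Fi_flow H hw hw', Fi, abs_le] at h1
  have h2 := abs_le.1 (h' _ _ (C.norm_ep H.a_pos hw') (C.norm_ep H.a_pos (hw.neg C)) d3)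
  exact abs_le.2 ⟨by linarith [h1.1, h2.2], by linarith [h1.2, h2.1]⟩

/-- PROP: bounded levels bound the point -/
lemma prop_lev (hw : C.Un y w) {r : ℝ} (h1 : |C.b (C.ep y w) y| ≤ r)
    (h2 : |C.b (C.ep y (-w)) y| ≤ r) : ‖y‖ ≤ r + Real.log 2 / a := by
  have ha := H.a_pos
  have n1 := C.ep_ne_zero ha hw
  have n2 := C.ep_ne_zero ha (hw.neg C)
  have h := C.cosh_dd_le ha n1 n2 (x := y)
    (by rw [C.W_ep_self ha hw, C.W_ep_self ha (hw.neg C)]) 0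
  rw [C.dd_zero, C.b_zero ha n1, C.b_zero ha n2, Real.cosh_eq] at h
  have e1 : Real.exp (a * (0 - C.b (C.ep y w) y)) ≤ Real.exp (a * r) := by
    gcongr; linarith [(abs_le.1 h1).1]
  have e2 : Real.exp (a * (0 - C.b (C.ep y (-w)) y)) ≤ Real.exp (a * r) := by
    gcongr; linarith [(abs_le.1 h2).1]
  have e3 : Real.exp (a * ‖y‖) ≤ Real.exp (a * r + Real.log 2) := by
    rw [Real.exp_add, Real.exp_log two_pos]
    linarith [Real.exp_pos (-(a * ‖y‖))]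
  rw [← sub_le_iff_le_add', le_div_iff₀' ha]
  linarith [Real.exp_le_exp.1 e3]

/-- END: a vector whose ends are both near `ξ₀` and a vector pointing to near `ξ₁ ≠ ξ₀`, both on
bounded horospheres, are never close -/
lemma end_far (h0 : (ξ₀, ξ₁) ∈ GG n) (B : ℝ) : ∃ ρ : ℝ, 0 < ρ ∧ ∀ y w y' w' t, C.Un y w →
    C.Un y' w' → ‖C.ep y w - ξ₀‖ ≤ ρ → ‖C.ep y (-w) - ξ₀‖ ≤ ρ → ‖C.ep y' w' - ξ₁‖ ≤ ρ →
    |C.b (C.ep y w) y| ≤ B → |C.b (C.ep y' w') y'| ≤ B →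
    C.dd (C.gd y w t) (C.gd y' w' t) ≤ ρ → ‖C.vel y w t - C.vel y' w' t‖ ≤ ρ → False := by
  have ha := H.a_pos
  have p : 0 < ‖ξ₁ - ξ₀‖ := norm_pos_iff.2 (sub_ne_zero.2 h0.2.2.symm)
  obtain ⟨ρ, K, ρ0, h⟩ := C.end_lev H (δ := ‖ξ₁ - ξ₀‖ / 3) (by positivity)
  obtain ⟨δ, δ0, hδ⟩ := C.cc_proper ha (K + 2 * B)
  refine ⟨min ρ (min (‖ξ₁ - ξ₀‖ / 3) (δ / 3)), by positivity,
    fun y w y' w' t hw hw' d1 d2 d3 b1 b2 d4 d5 => ?_⟩
  simp only [le_min_iff] at d1 d2 d3 d4 d5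
  have h1 := abs_le.1 (h y w y' w' t hw hw' d4.1 d5.1 (by
    have i1 := norm_sub_le_norm_sub_add_norm_sub ξ₁ (C.ep y' w') ξ₀
    have i2 := norm_sub_le_norm_sub_add_norm_sub (C.ep y' w') (C.ep y (-w)) ξ₀
    rw [norm_sub_rev ξ₁ (C.ep y' w')] at i1
    linarith [d2.2.1, d3.2.1]))
  have h2 := hδ _ _ (C.ep_GG ha hw) (by
    have i1 := norm_sub_le_norm_sub_add_norm_sub (C.ep y w) ξ₀ (C.ep y (-w))
    rw [norm_sub_rev ξ₀] at i1
    linarith [d1.2.2, d2.2.2])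
  rw [C.cc_eq ha (x := y) (GG_sub (C.ep_GG ha hw))
    (by rw [C.W_ep_self ha hw, C.W_ep_self ha (hw.neg C)])] at h2
  linarith [h1.1, (abs_le.1 b1).1, (abs_le.1 b2).2]

end Crest.Agent.N221.Cov
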